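import Vale.Agent.P313.H72.MWe
import Vale.Agent.P313.H157.V3

/-!
Medium width: the theorem.
-/

namespace Vale.Agent.P313.MW

/-- MEDIUM WIDTH. -/
theorem medium_width
    {lam W K g : ℕ → ℕ} (hlam : LogConstructible lam) (hW : LogConstructible W)
    (hK : LogConstructible K) (hg : LogConstructible g) :
    ∃ (A : Set (List Bool)) (D : RTM) (e : ℝ),
      D.Decides A (fun n => (2 : ℝ) ^ (e * theS lam W g n)) (fun n => e * theS lam W g n) ∧
      ∀ x : List Bool, SubSt x (lam x.length) (W x.length) (K x.length) (g x.length) →
        (((num x (2 * W x.length) (g x.length + 1) : ℚ) + 1) / 2 ^ g x.length ≤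
          prodM x (W x.length) (K x.length) (g x.length) (2 ^ lam x.length)
            (num x 0 (W x.length)) (num x (W x.length) (W x.length)) → x ∈ A) ∧
        (prodM x (W x.length) (K x.length) (g x.length) (2 ^ lam x.length)
            (num x 0 (W x.length)) (num x (W x.length) (W x.length)) ≤
          (num x (2 * W x.length) (g x.length + 1) : ℚ) / 2 ^ g x.length → x ∉ A) :=
  mw_of_modV H157.modV hlam hW hK hg

end Vale.Agent.P313.MW
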