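import Vale.Agent.P313.H72.MWa

/-!
Medium width, assembly: the language, soundness and completeness.
-/

namespace Vale.Agent.P313.MW

open Finset

theorem num_lt (x : List Bool) (i l : ℕ) : num x i l < 2 ^ l := by
  induction l with
  | zero => simp [num]
  | succ l ih =>
    unfold num at ih ⊢
    rw [sum_range_succ, pow_succ]
    have h : bit x (i + l) ≤ 1 := by unfold bit; split_ifs <;> simp
    have h2 : bit x (i + l) * 2 ^ l ≤ 1 * 2 ^ l := Nat.mul_le_mul_right _ h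
    omega

/-- The bottom of the recursion, with the budget `M`. -/
def bsx (Q J X : ℕ) (x : List Bool) (lam W K g M A a : ℕ) : ℕ :=
  numT x lam W K g A (fd X a 4) (fd X a 5) * min (Q ^ J) (M + 1) / 2 ^ K / Q ^ fd X a 6 % Q

theorem fd_four {X kd C i j u v e w : ℕ} (hX : 0 < X) :
    fd X (pk X [kd, C, i, j, u, v, e, w]) 4 = u % X := by
  rw [fd_succ hX, fd_succ hX, fd_succ hX, fd_succ hX, fd_zero]

theorem fd_five {X kd C i j u v e w : ℕ} (hX : 0 < X) :
    fd X (pk X [kd, C, i, j, u, v, e, w]) 5 = v % X := by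
  rw [fd_succ hX, fd_succ hX, fd_succ hX, fd_succ hX, fd_succ hX, fd_zero]

theorem fd_six {X kd C i j u v e w : ℕ} (hX : 0 < X) :
    fd X (pk X [kd, C, i, j, u, v, e, w]) 6 = e % X := by
  rw [fd_succ hX, fd_succ hX, fd_succ hX, fd_succ hX, fd_succ hX, fd_succ hX, fd_zero]

theorem bsx_eq {Q J X : ℕ} {x : List Bool} {lam W K g M A u v e : ℕ} (hX : 0 < X)
    (hM : Q ^ J ≤ M) (hu : u < X) (hv : v < X) (he : e < X) :
    bsx Q J X x lam W K g M A (pk X [0, 0, 0, 0, u, v, e, 0]) =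
      baseM Q J x lam W K g A u v / Q ^ e % Q := by
  unfold bsx baseM
  rw [fd_four hX, fd_five hX, fd_six hX, Nat.mod_eq_of_lt hu, Nat.mod_eq_of_lt hv,
    Nat.mod_eq_of_lt he, min_eq_left (by omega)]

/-- All blocks of all stages have a good subset of the pool `z`. -/
def okz (π : Prm) (X : ℕ) (bs : ℕ → ℕ → ℕ) (z : ℕ) : Prop :=
  ∀ k < π.s, ∀ A < π.n ^ (π.s - k - 1),
    π.V X (alz π.Q z) (bez π.Q z) bs (k * π.LP + 9) A (pk X [3, 0, 0, 0, 0, 0, 0, 0]) ≠ 0

/-- The result for the pool `z`. -/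
def resz (π : Prm) (X : ℕ) (bs : ℕ → ℕ → ℕ) (z u v : ℕ) : ℕ :=
  ∑ e ∈ range (π.J + 1),
    π.V X (alz π.Q z) (bez π.Q z) bs (π.s * π.LP) 0 (pk X [0, 0, 0, 0, u, v, e, 0]) * π.Q ^ e

/-- Acceptance with budget `M`. -/
def Acc (x : List Bool) (lam W K g M : ℕ) : Prop :=
  ∃ z < M + 1, okz (thePrm lam W g) (theX lam W g)
      (bsx (thePrm lam W g).Q (thePrm lam W g).J (theX lam W g) x lam W K g M) z ∧
    (2 * num x (2 * W) (g + 1) + 1) * (thePrm lam W g).Q ^ (thePrm lam W g).J <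
      2 ^ (g + 1) * resz (thePrm lam W g) (theX lam W g)
        (bsx (thePrm lam W g).Q (thePrm lam W g).J (theX lam W g) x lam W K g M) z
        (num x 0 W) (num x W W)

section spec

variable {π : Prm} {X : ℕ} {x : List Bool} {lam W K g M : ℕ}

theorem N_le_W4 : π.N ≤ π.W4 := by
  unfold Prm.W4
  have : π.N ≤ (π.n + 1) * π.N := Nat.le_mul_of_pos_left _ (Nat.succ_pos _)
  omega

theorem J_lt_F : π.J < π.F := by
  unfold Prm.F
  have : π.J + 4 ≤ (π.J + 4) * 2 ^ π.D := Nat.le_mul_of_pos_right _ (Nat.two_pow_pos _)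
  omega

theorem baseV (hV : ModV) (hT : ModT) (hB : π.Big X) (hM : π.Q ^ π.J ≤ M) (z k A : ℕ) :
    (∀ u < π.N, ∀ v < π.N, ∀ e < X,
      π.V X (alz π.Q z) (bez π.Q z) (bsx π.Q π.J X x lam W K g M) (k * π.LP) A
        (pk X [0, 0, 0, 0, u, v, e, 0]) =
        π.stg (alz π.Q z) (bez π.Q z) (baseM π.Q π.J x lam W K g) k A u v / π.Q ^ e % π.Q) ∧
    (π.V X (alz π.Q z) (bez π.Q z) (bsx π.Q π.J X x lam W K g M) (k * π.LP + 9) A
      (pk X [3, 0, 0, 0, 0, 0, 0, 0]) ≠ 0 ↔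
      π.found (alz π.Q z) (bez π.Q z) (fun p u v => π.stg (alz π.Q z) (bez π.Q z)
        (baseM π.Q π.J x lam W K g) k (A * π.n + p) u v)) := by
  have hQX := hB.QX
  have hWX := hB.WX
  have hNW := N_le_W4 (π := π)
  exact hV π X (alz π.Q z) (bez π.Q z) (bsx π.Q π.J X x lam W K g M) (baseM π.Q π.J x lam W K g)
    hB (fun A u hu v hv e he => bsx_eq (by omega) hM (by omega) (by omega) he)
    (fun A u v => (hT x lam W K g).1 π.Q π.J A u v hB.Q2) k A

theorem resz_eq (hV : ModV) (hT : ModT) (hB : π.Big X) (hs : 1 ≤ π.s) (hM : π.Q ^ π.J ≤ M)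
    (z : ℕ) {u v : ℕ} (hu : u < π.N) (hv : v < π.N) :
    resz π X (bsx π.Q π.J X x lam W K g M) z u v =
      π.stg (alz π.Q z) (bez π.Q z) (baseM π.Q π.J x lam W K g) π.s 0 u v := by
  unfold resz
  have hQ2 := hB.Q2
  have hFX := hB.FX
  have hJF := J_lt_F (π := π)
  have h1 : ∀ e ∈ range (π.J + 1),
      π.V X (alz π.Q z) (bez π.Q z) (bsx π.Q π.J X x lam W K g M) (π.s * π.LP) 0
        (pk X [0, 0, 0, 0, u, v, e, 0]) * π.Q ^ e =
      π.stg (alz π.Q z) (bez π.Q z) (baseM π.Q π.J x lam W K g) π.s 0 u v / π.Q ^ e % π.Q *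
        π.Q ^ e := by
    intro e he
    rw [mem_range] at he
    rw [(baseV hV hT hB hM z π.s 0).1 u hu v hv e (by omega)]
  rw [sum_congr rfl h1, sum_digits (by omega)]
  exact Nat.mod_eq_of_lt (Prm.stg_lt hs (by omega) _ _ _ _)

/-- Soundness. -/
theorem resz_near (hV : ModV) (hT : ModT) (hN : ModN) (hK2 : ModK2)
    (hx : SubSt x lam W K g) (hM : (thePrm lam W g).Q ^ (thePrm lam W g).J ≤ M) {z u v : ℕ}
    (hu : u < 2 ^ W) (hv : v < 2 ^ W)
    (hz : okz (thePrm lam W g) (theX lam W g)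
      (bsx (thePrm lam W g).Q (thePrm lam W g).J (theX lam W g) x lam W K g M) z) :
    |(resz (thePrm lam W g) (theX lam W g)
      (bsx (thePrm lam W g).Q (thePrm lam W g).J (theX lam W g) x lam W K g M) z u v : ℚ) /
        ((thePrm lam W g).Q : ℚ) ^ (thePrm lam W g).J - prodM x W K g (2 ^ lam) u v| <
      1 / 2 ^ (g + 1) := by
  obtain ⟨hnum, hbig, hls, -, -, -, -, herr⟩ := hN.1 lam W g
  set π := thePrm lam W g with hπ
  have hNW : π.N = 2 ^ W + 1 := rfl
  have hQ2 := hbig.Q2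
  rw [resz_eq hV hT hbig hnum.s1 hM z (by omega) (by omega)]
  have hst : Stoch π.N (π.n ^ π.s) (trueM x lam W K g) := (hT x lam W K g).2.2.1 hx _
  have h1 := hK2 π _ (alz π.Q z) (bez π.Q z) (baseM π.Q π.J x lam W K g) (trueM x lam W K g) π.s
    hnum le_rfl hst (fun A _ u _ v _ => (hT x lam W K g).2.1 π.Q π.J A u v hQ2) π.s le_rfl
    (fun k hk A hA => (baseV hV hT hbig hM z k A).2.1 (hz k hk A hA)) 0
    (by rw [Nat.sub_self, pow_zero]; exact Nat.one_pos) u (by omega) v (by omega)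
  have h2 : 2 ^ lam ≤ π.n ^ π.s := by
    unfold Prm.n
    rw [← pow_mul]
    apply Nat.pow_le_pow_right (by norm_num)
    have : π.s * π.s = π.s ^ 2 := by ring
    omega
  have h3 := (hT x lam W K g).2.2.2 hx (π.n ^ π.s) h2 u hu v hv
  rw [zero_mul, hNW, h3] at h1
  refine lt_of_le_of_lt h1 ?_
  rw [← hNW]
  exact herr

/-- Completeness. -/
theorem exists_okz (hV : ModV) (hT : ModT) (hN : ModN) (hK3 : ModK3)
    (hx : SubSt x lam W K g) (hM : (thePrm lam W g).Q ^ (4 * (thePrm lam W g).s + 4) ≤ M) :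
    ∃ z < M + 1, okz (thePrm lam W g) (theX lam W g)
      (bsx (thePrm lam W g).Q (thePrm lam W g).J (theX lam W g) x lam W K g M) z := by
  obtain ⟨hnum, hbig, hls, -, -, -, -, -⟩ := hN.1 lam W g
  set π := thePrm lam W g with hπ
  have hQ2 := hbig.Q2
  have hst : Stoch π.N (π.n ^ π.s) (trueM x lam W K g) := (hT x lam W K g).2.2.1 hx _
  obtain ⟨al, be, hab, hf⟩ := hK3 π _ (baseM π.Q π.J x lam W K g) (trueM x lam W K g) hnum hst
    (fun A _ u _ v _ => (hT x lam W K g).2.1 π.Q π.J A u v hQ2)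
  obtain ⟨z, hz, hz2⟩ := exists_pool_number (s := π.s) hab
  have hJ := hnum.J
  have hMJ : π.Q ^ π.J ≤ M :=
    (Nat.pow_le_pow_right (by omega) (by omega)).trans hM
  have hzM : z < M + 1 := by
    have : π.Q ^ (4 * π.s) ≤ π.Q ^ (4 * π.s + 4) := Nat.pow_le_pow_right (by omega) (by omega)
    omega
  refine ⟨z, hzM, fun k hk A hA => (baseV hV hT hbig hMJ z k A).2.2 ?_⟩
  have h1 := hf k hk A hA
  rw [← Prm.found_congr hz2] at h1
  have h2 : (fun p u v => π.stg al be (baseM π.Q π.J x lam W K g) k (A * π.n + p) u v) =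
      (fun p u v => π.stg (alz π.Q z) (bez π.Q z) (baseM π.Q π.J x lam W K g) k
        (A * π.n + p) u v) := by
    funext p u v
    exact (Prm.stg_congr hz2 _ _ _ _ _).symm
  rw [h2] at h1
  exact h1

end spec

/-- The promise problem. -/
theorem acc_spec (hV : ModV) (hT : ModT) (hN : ModN) (hK2 : ModK2) (hK3 : ModK3)
    {x : List Bool} {lam W K g M : ℕ} (hx : SubSt x lam W K g)
    (hM : (thePrm lam W g).Q ^ (4 * (thePrm lam W g).s + 4) ≤ M) :
    (((num x (2 * W) (g + 1) : ℚ) + 1) / 2 ^ g ≤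
      prodM x W K g (2 ^ lam) (num x 0 W) (num x W W) → Acc x lam W K g M) ∧
    (prodM x W K g (2 ^ lam) (num x 0 W) (num x W W) ≤ (num x (2 * W) (g + 1) : ℚ) / 2 ^ g →
      ¬ Acc x lam W K g M) := by
  obtain ⟨hnum, hbig, -, -, -, -, -, -⟩ := hN.1 lam W g
  have hQ2 := hbig.Q2
  have hJ := hnum.J
  have hMJ : (thePrm lam W g).Q ^ (thePrm lam W g).J ≤ M :=
    (Nat.pow_le_pow_right (by omega) (by omega)).trans hM
  have hu := num_lt x 0 W
  have hv := num_lt x W W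
  have hq : (0 : ℚ) < ((thePrm lam W g).Q : ℚ) ^ (thePrm lam W g).J := by
    have h0 : 0 < (thePrm lam W g).Q := by omega
    exact pow_pos (Nat.cast_pos.2 h0) _
  have h2g : (0 : ℚ) < 2 ^ g := by positivity
  set c : ℚ := (num x (2 * W) (g + 1) : ℚ) with hc
  set p := prodM x W K g (2 ^ lam) (num x 0 W) (num x W W) with hp
  set q : ℚ := ((thePrm lam W g).Q : ℚ) ^ (thePrm lam W g).J with hqd
  have key : ∀ r : ℕ, ((2 * num x (2 * W) (g + 1) + 1) *
      (thePrm lam W g).Q ^ (thePrm lam W g).J < 2 ^ (g + 1) * r ↔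
      (2 * c + 1) / 2 ^ (g + 1) < (r : ℚ) / q) := by
    intro r
    rw [div_lt_div_iff₀ (by positivity) hq, hc, hqd]
    constructor
    · intro h
      have h2 : (((2 * num x (2 * W) (g + 1) + 1) *
        (thePrm lam W g).Q ^ (thePrm lam W g).J : ℕ) : ℚ) < ((2 ^ (g + 1) * r : ℕ) : ℚ) := by
        exact_mod_cast h
      push_cast at h2
      linarith
    · intro h
      have h2 : (((2 * num x (2 * W) (g + 1) + 1) *
        (thePrm lam W g).Q ^ (thePrm lam W g).J : ℕ) : ℚ) < ((2 ^ (g + 1) * r : ℕ) : ℚ) := by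
        push_cast
        linarith
      exact_mod_cast h2
  constructor
  · intro h
    obtain ⟨z, hz, hok⟩ := exists_okz hV hT hN hK3 hx hM
    refine ⟨z, hz, hok, ?_⟩
    rw [key]
    have h1 := resz_near hV hT hN hK2 hx hMJ hu hv hok
    rw [abs_lt] at h1
    have h2 : (c + 1) / 2 ^ g = (2 * c + 2) / 2 ^ (g + 1) := by
      rw [pow_succ]; field_simp
    have h3 : (2 * c + 2) / 2 ^ (g + 1) = (2 * c + 1) / 2 ^ (g + 1) + 1 / 2 ^ (g + 1) := by
      rw [← add_div]; ring_nf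
    rw [h2, h3] at h
    linarith [h1.1]
  · rintro h ⟨z, hz, hok, hlt⟩
    rw [key] at hlt
    have h1 := resz_near hV hT hN hK2 hx hMJ hu hv hok
    rw [abs_lt] at h1
    have h2 : c / 2 ^ g = (2 * c) / 2 ^ (g + 1) := by
      rw [pow_succ]; field_simp
    have h3 : (2 * c + 1) / 2 ^ (g + 1) = (2 * c) / 2 ^ (g + 1) + 1 / 2 ^ (g + 1) := by
      rw [← add_div]
    rw [h2] at h
    rw [h3] at hlt
    linarith [h1.2]

end Vale.Agent.P313.MW
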