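import Vale.Agent.P313.H72.MWb
import Vale.Agent.P313.H72.MWc

/-!
Medium width, assembly: the machine.
-/

namespace Vale.Agent.P313.MW

open Finset

variable {k : ℕ}

theorem lf_pk {X f0 f1 f2 f3 f4 f5 f6 f7 : Fn k} (hX : LF X) (h0 : LF f0) (h1 : LF f1)
    (h2 : LF f2) (h3 : LF f3) (h4 : LF f4) (h5 : LF f5) (h6 : LF f6) (h7 : LF f7) :
    LF (fun x a => pk (X x a) [f0 x a, f1 x a, f2 x a, f3 x a, f4 x a, f5 x a, f6 x a,
      f7 x a]) := by
  unfold pk pk pk pk pk pk pk pk pk
  exact (h0.mod hX).add (hX.mul ((h1.mod hX).add (hX.mul ((h2.mod hX).add (hX.mul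
    ((h3.mod hX).add (hX.mul ((h4.mod hX).add (hX.mul ((h5.mod hX).add (hX.mul
    ((h6.mod hX).add (hX.mul ((h7.mod hX).add (hX.mul (LF.const 0))))))))))))))))

theorem lf_fd {X f : Fn k} (hX : LF X) (hf : LF f) (i : ℕ) :
    LF (fun x a => fd (X x a) (f x a) i) :=
  (hf.div (hX.powConst i)).mod hX

/-- The value computed by the stack machine. -/
noncomputable def runV (x : List Bool) (lam W K g z M lev A a : ℕ) : ℕ :=
  ((thePrm lam W g).rcn (theX lam W g) (alz (thePrm lam W g).Q z) (bez (thePrm lam W g).Q z)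
    (bsx (thePrm lam W g).Q (thePrm lam W g).J (theX lam W g) x lam W K g M)).run
    ((thePrm lam W g).n ^ (thePrm lam W g).s) (theX lam W g ^ 8) (theX lam W g ^ 4) lev M A a

/-- Acceptance, with the stack machine. -/
def AccR (x : List Bool) (lam W K g M : ℕ) : Prop :=
  ¬ ∀ z < M + 1, ¬ ((∀ k < (thePrm lam W g).s,
      ∀ A < (thePrm lam W g).n ^ (thePrm lam W g).s / (thePrm lam W g).n ^ (k + 1),
        runV x lam W K g z M (k * (thePrm lam W g).LP + 9) A
          (pk (theX lam W g) [3, 0, 0, 0, 0, 0, 0, 0]) ≠ 0) ∧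
    (2 * num x (2 * W) (g + 1) + 1) * min ((thePrm lam W g).Q ^ (thePrm lam W g).J) (M + 1) <
      2 ^ (g + 1) * ∑ e ∈ range ((thePrm lam W g).J + 1),
        runV x lam W K g z M ((thePrm lam W g).s * (thePrm lam W g).LP) 0
          (pk (theX lam W g) [0, 0, 0, 0, num x 0 W, num x W W, e, 0]) *
          min ((thePrm lam W g).Q ^ e) (M + 1))

theorem accR_iff (hN : ModN) {x : List Bool} {lam W K g M : ℕ} (hM : theM lam W g ≤ M) :
    AccR x lam W K g M ↔ Acc x lam W K g M := by
  obtain ⟨hnum, hbig, -, h1, h2, h3, h4, -⟩ := hN.1 lam W g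
  have hQ2 := hbig.Q2
  have hQX := hbig.QX
  have hJ := hnum.J
  have hn : 0 < (thePrm lam W g).n := Prm.n_pos72
  have hMJ : (thePrm lam W g).Q ^ (thePrm lam W g).J ≤ M :=
    ((Nat.pow_le_pow_right (by omega) (by omega)).trans h3).trans hM
  have hrun : ∀ (z lev A a : ℕ), lev ≤ (thePrm lam W g).s * (thePrm lam W g).LP →
      A < (thePrm lam W g).bd lev → a < theX lam W g ^ 8 →
      runV x lam W K g z M lev A a = (thePrm lam W g).V (theX lam W g)
        (alz (thePrm lam W g).Q z) (bez (thePrm lam W g).Q z)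
        (bsx (thePrm lam W g).Q (thePrm lam W g).J (theX lam W g) x lam W K g M) lev A a :=
    fun z lev A a hl hA ha => Prm.run_eq (by omega) h4 (h1.trans hM) (h2.trans hM) hl hA ha
  have hpk : ∀ a b c d e f g' h : ℕ, pk (theX lam W g) [a, b, c, d, e, f, g', h] <
      theX lam W g ^ 8 := fun _ _ _ _ _ _ _ _ => pk_lt (by omega) _
  have hall : ∀ z, (∀ k < (thePrm lam W g).s,
      ∀ A < (thePrm lam W g).n ^ (thePrm lam W g).s / (thePrm lam W g).n ^ (k + 1),
        runV x lam W K g z M (k * (thePrm lam W g).LP + 9) A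
          (pk (theX lam W g) [3, 0, 0, 0, 0, 0, 0, 0]) ≠ 0) ↔
      okz (thePrm lam W g) (theX lam W g)
        (bsx (thePrm lam W g).Q (thePrm lam W g).J (theX lam W g) x lam W K g M) z := by
    intro z
    unfold okz
    refine forall_congr' (fun k => imp_congr_right (fun hk => ?_))
    have hdiv : (thePrm lam W g).n ^ (thePrm lam W g).s / (thePrm lam W g).n ^ (k + 1) =
        (thePrm lam W g).n ^ ((thePrm lam W g).s - k - 1) := by
      rw [Nat.pow_div (by omega) hn, Nat.sub_sub]
    rw [hdiv]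
    refine forall_congr' (fun A => imp_congr_right (fun hA => ?_))
    have hlev : k * (thePrm lam W g).LP + 9 ≤ (thePrm lam W g).s * (thePrm lam W g).LP := by
      have h5 : (k + 1) * (thePrm lam W g).LP ≤ (thePrm lam W g).s * (thePrm lam W g).LP :=
        Nat.mul_le_mul_right _ hk
      have h6 : 12 ≤ (thePrm lam W g).LP := by unfold Prm.LP; omega
      rw [add_mul, one_mul] at h5
      omega
    rw [hrun z _ A _ hlev (by rw [Prm.bd_nine]; exact hA) (hpk _ _ _ _ _ _ _ _)]
  have hsum : ∀ z, ∑ e ∈ range ((thePrm lam W g).J + 1),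
        runV x lam W K g z M ((thePrm lam W g).s * (thePrm lam W g).LP) 0
          (pk (theX lam W g) [0, 0, 0, 0, num x 0 W, num x W W, e, 0]) *
          min ((thePrm lam W g).Q ^ e) (M + 1) =
      resz (thePrm lam W g) (theX lam W g)
        (bsx (thePrm lam W g).Q (thePrm lam W g).J (theX lam W g) x lam W K g M) z
        (num x 0 W) (num x W W) := by
    intro z
    unfold resz
    refine sum_congr rfl (fun e he => ?_)
    rw [mem_range] at he
    have h5 : (thePrm lam W g).Q ^ e ≤ (thePrm lam W g).Q ^ (thePrm lam W g).J :=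
      Nat.pow_le_pow_right (by omega) (by omega)
    rw [hrun z _ 0 _ le_rfl (by rw [Prm.bd_top]; exact Nat.one_pos) (hpk _ _ _ _ _ _ _ _),
      min_eq_left (by omega)]
  unfold AccR Acc
  rw [min_eq_left (by omega)]
  push Not
  refine exists_congr (fun z => ?_)
  rw [hsum]
  have h6 := hall z
  constructor
  · rintro ⟨h7, h8, h9⟩
    exact ⟨h7, h6.1 h8, h9⟩
  · rintro ⟨h7, h8, h9⟩
    exact ⟨h7, h6.2 h8, h9⟩

section par

variable {lam W K g : ℕ → ℕ} {c : ℕ}

theorem lf_bsx (P : Par lam W K g c)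
    (hp : PrmLF (fun x => thePrm (lam x.length) (W x.length) (g x.length)))
    (hX : ∀ m, LF (fun x _ => theX (lam x.length) (W x.length) (g x.length) : Fn m)) :
    LF (fun x a => bsx (thePrm (lam x.length) (W x.length) (g x.length)).Q
      (thePrm (lam x.length) (W x.length) (g x.length)).J
      (theX (lam x.length) (W x.length) (g x.length)) x (lam x.length) (W x.length) (K x.length)
      (g x.length) (a 0) (a 1) (a 2) : Fn 3) := by
  unfold bsx
  have h1 := P.lf_numT (k := 3) (LF.proj 1) (lf_fd (hX 3) (LF.proj 2) 4)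
    (lf_fd (hX 3) (LF.proj 2) 5)
  have h2 := LF.powMin (k := 3) (hp.Q 3) (hp.J 3) (LF.proj 0)
  exact ((LF.divPow (hp.Q 3) ((h1.mul h2).div (lf_x (lf_twoPow P.hK P.Kc) 3))
    (lf_fd (hX 3) (LF.proj 2) 6))).mod (hp.Q 3)

theorem lf_runV (hL : ModL) (hN : ModN) (P : Par lam W K g c)
    (hp : PrmLF (fun x => thePrm (lam x.length) (W x.length) (g x.length)))
    (hX : ∀ m, LF (fun x _ => theX (lam x.length) (W x.length) (g x.length) : Fn m))
    {z M lev A a : Fn k} (hz : LF z) (hM : LF M) (hlev : LF lev) (hA : LF A) (ha : LF a) :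
    LF (fun x b => runV x (lam x.length) (W x.length) (K x.length) (g x.length) (z x b) (M x b)
      (lev x b) (A x b) (a x b)) := by
  have h1 := hL (fun x => thePrm (lam x.length) (W x.length) (g x.length))
    (fun x => theX (lam x.length) (W x.length) (g x.length))
    (fun x M A a => bsx (thePrm (lam x.length) (W x.length) (g x.length)).Q
      (thePrm (lam x.length) (W x.length) (g x.length)).J
      (theX (lam x.length) (W x.length) (g x.length)) x (lam x.length) (W x.length) (K x.length)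
      (g x.length) M A a) hp hX (fun x => by
        have := (hN.1 (lam x.length) (W x.length) (g x.length)).2.1.Q2
        omega) (lf_bsx P hp hX)
  exact lf_comp5 (F := fun x z M lev A a => runV x (lam x.length) (W x.length) (K x.length)
    (g x.length) z M lev A a) h1 hz hM hlev hA ha

theorem lf_LP (hp : PrmLF (fun x => thePrm (lam x.length) (W x.length) (g x.length))) (k : ℕ) :
    LF (fun x _ => (thePrm (lam x.length) (W x.length) (g x.length)).LP : Fn k) :=
  (LF.const 12).add ((LF.const 2).mul (hp.D k))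

theorem lfp_accR (hL : ModL) (hN : ModN) (P : Par lam W K g c)
    (hp : PrmLF (fun x => thePrm (lam x.length) (W x.length) (g x.length)))
    (hX : ∀ m, LF (fun x _ => theX (lam x.length) (W x.length) (g x.length) : Fn m)) :
    LFP (fun x a => AccR x (lam x.length) (W x.length) (K x.length) (g x.length) (a 0) :
      List Bool → (Fin 1 → ℕ) → Prop) := by
  -- the innermost predicate: `A`, `k`, `z`, `M`
  have p4 : LFP (fun x e => ¬ runV x (lam x.length) (W x.length) (K x.length) (g x.length) (e 2)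
      (e 3) (e 1 * (thePrm (lam x.length) (W x.length) (g x.length)).LP + 9) (e 0)
      (pk (theX (lam x.length) (W x.length) (g x.length)) [3, 0, 0, 0, 0, 0, 0, 0]) = 0 :
      List Bool → (Fin 4 → ℕ) → Prop) := by
    refine (LFP.eq_zero (lf_runV hL hN P hp hX (LF.proj 2) (LF.proj 3)
      (((LF.proj 1).mul (lf_LP hp 4)).add (LF.const 9)) (LF.proj 0) ?_)).not
    exact lf_pk (hX 4) (LF.const 3) (LF.const 0) (LF.const 0) (LF.const 0) (LF.const 0)
      (LF.const 0) (LF.const 0) (LF.const 0)
  have p3 := LFP.all p4 (LF.divPow (hp.n 3) (hp.Ma 3) (LF.proj 0).succ)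
  have p2 := LFP.all p3 (hp.s 2)
  have hu := lf_num' (k := 3) (LF.const 0) P.hW P.Wc
  have hv := lf_num' (k := 3) (lf_x P.hW 3) P.hW P.Wc
  have s1 : LF (fun x d => runV x (lam x.length) (W x.length) (K x.length) (g x.length) (d 1)
      (d 2) ((thePrm (lam x.length) (W x.length) (g x.length)).s *
        (thePrm (lam x.length) (W x.length) (g x.length)).LP) 0
      (pk (theX (lam x.length) (W x.length) (g x.length)) [0, 0, 0, 0, num x 0 (W x.length),
        num x (W x.length) (W x.length), d 0, 0]) *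
      min ((thePrm (lam x.length) (W x.length) (g x.length)).Q ^ d 0) (d 2 + 1) : Fn 3) := by
    refine (lf_runV hL hN P hp hX (LF.proj 1) (LF.proj 2) ((hp.s 3).mul (lf_LP hp 3))
      (LF.const 0) ?_).mul (LF.powMin (hp.Q 3) (LF.proj 0) (LF.proj 2))
    exact lf_pk (hX 3) (LF.const 0) (LF.const 0) (LF.const 0) (LF.const 0) hu hv (LF.proj 0)
      (LF.const 0)
  have s2 := LF.sum s1 (hp.J 2).succ
  have hc := lf_num (k := 2) ((LF.const 2).mul (lf_x P.hW 2)) P.hg P.gc
  have h2g : LF (fun x _ => 2 ^ (g x.length + 1) : Fn 2) :=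
    ((lf_x (lf_twoPow P.hg P.gc) 2).mul (LF.const 2)).congr (fun x _ => (pow_succ _ _).symm)
  have q2 := LFP.lt ((((LF.const 2).mul hc).succ).mul (LF.powMin (hp.Q 2) (hp.J 2) (LF.proj 1)))
    (h2g.mul s2)
  exact (LFP.all (p2.and q2).not (LF.proj (k := 1) 0).succ).not

end par

theorem one_le_theS (lam W g : ℕ → ℕ) (n : ℕ) : 1 ≤ theS lam W g n := by
  unfold theS
  have h1 : 1 ≤ Real.logb 2 ((n : ℝ) + 2) := by
    rw [Real.le_logb_iff_rpow_le (by norm_num) (by positivity)]
    simp
  have h2 : 0 ≤ Real.logb 2 ((lam n : ℝ) + g n + 2) := by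
    apply Real.logb_nonneg (by norm_num)
    have h3 : (0 : ℝ) ≤ lam n := Nat.cast_nonneg _
    have h4 : (0 : ℝ) ≤ g n := Nat.cast_nonneg _
    linarith
  have h3 : 0 ≤ ((lam n : ℝ) + g n + Real.sqrt ((lam n : ℝ) + g n) * W n) *
      Real.logb 2 ((lam n : ℝ) + g n + 2) := by positivity
  linarith

theorem decides_mono' {D : RTM} {A : Set (List Bool)} {T T' S S' : ℕ → ℝ}
    (h : D.Decides A T S) (hT : ∀ n, T n ≤ T' n) (hS : ∀ n, S n ≤ S' n) : D.Decides A T' S' :=
  ⟨h.1, fun x ω => ⟨fun t ht => (h.2 x ω).1 t ((hT _).trans ht),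
    fun t i => ((h.2 x ω).2 t i).trans (hS _)⟩⟩

/-- MEDIUM WIDTH. -/
theorem mw_decides (hV : ModV) (hL : ModL) (hT : ModT) (hN : ModN) (hK2 : ModK2) (hK3 : ModK3)
    {lam W K g : ℕ → ℕ} (hlam : LogConstructible lam) (hW : LogConstructible W)
    (hK : LogConstructible K) (hg : LogConstructible g) :
    ∃ (A : Set (List Bool)) (D : RTM) (e : ℝ),
      D.Decides A (fun n => (2 : ℝ) ^ (e * theS lam W g n)) (fun n => e * theS lam W g n) ∧
      ∀ x : List Bool, SubSt x (lam x.length) (W x.length) (K x.length) (g x.length) →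
        (((num x (2 * W x.length) (g x.length + 1) : ℚ) + 1) / 2 ^ g x.length ≤
          prodM x (W x.length) (K x.length) (g x.length) (2 ^ lam x.length)
            (num x 0 (W x.length)) (num x (W x.length) (W x.length)) → x ∈ A) ∧
        (prodM x (W x.length) (K x.length) (g x.length) (2 ^ lam x.length)
            (num x 0 (W x.length)) (num x (W x.length) (W x.length)) ≤
          (num x (2 * W x.length) (g x.length + 1) : ℚ) / 2 ^ g x.length → x ∉ A) := by
  obtain ⟨c, P⟩ := exists_par hlam hW hK hg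
  obtain ⟨c', hc'⟩ := hN.2.1 lam W g c P.lamc P.Wc P.gc
  obtain ⟨hp, hX⟩ := hN.2.2 lam W g P.hlam P.hW P.hg c P.lamc P.Wc P.gc
  let M : List Bool → ℕ := fun x => theM (lam x.length) (W x.length) (g x.length)
  let A : Set (List Bool) :=
    {x | Acc x (lam x.length) (W x.length) (K x.length) (g x.length) (M x)}
  have hF := lfp_accR hL hN P hp hX
  have hG : LF (fun x a => ind (min (theX (lam x.length) (W x.length) (g x.length) ^
      (30 * ((thePrm (lam x.length) (W x.length) (g x.length)).s *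
        (thePrm (lam x.length) (W x.length) (g x.length)).LP + 1))) (a 0 + 1) ≤ a 0) : Fn 1) :=
    LFP.le (LF.powMin (hX 1) ((LF.const 30).mul ((hp.s 1).mul (lf_LP hp 1)).succ) (LF.proj 0))
      (LF.proj 0)
  obtain ⟨D, e, hD⟩ := CT.pad_decides_real (S := theS lam W g) (A := A) hF hG
    (fun n => zero_le_one.trans (one_le_theS lam W g n)) (c := c') (fun x => by
      have hM : ∀ m : ℕ, min (theX (lam x.length) (W x.length) (g x.length) ^
          (30 * ((thePrm (lam x.length) (W x.length) (g x.length)).s *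
          (thePrm (lam x.length) (W x.length) (g x.length)).LP + 1))) (m + 1) ≤ m ↔
          M x ≤ m := by
        intro m
        show min (M x) (m + 1) ≤ m ↔ M x ≤ m
        omega
      refine ⟨M x, fun m hm => ?_, ?_, hc' x.length, ?_⟩
      · refine ind_false (fun h => ?_)
        have h2 := (hM m).1 h
        omega
      · rw [CT.ind_ne_zero, hM]
      · rw [CT.ind_ne_zero]
        exact accR_iff hN le_rfl)
  refine ⟨A, D, 2 * e, decides_mono' hD (fun n => ?_) (fun n => ?_), fun x hx => ?_⟩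
  · apply Real.rpow_le_rpow_of_exponent_le (by norm_num)
    have h1 := one_le_theS lam W g n
    have h2 : (0 : ℝ) ≤ e := Nat.cast_nonneg _
    nlinarith
  · have h1 := one_le_theS lam W g n
    have h2 : (0 : ℝ) ≤ e := Nat.cast_nonneg _
    nlinarith
  · exact acc_spec hV hT hN hK2 hK3 hx (hN.1 _ _ _).2.2.2.2.2.1

end Vale.Agent.P313.MW
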