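import Vale.Agent.P313.H463.MW.MStmt
import Vale.Agent.P313.H296.Shell

/-!
Medium width, assembly: the matrices of the input are computed in `LF`.
-/

namespace Vale.Agent.P313.MW

open Finset

variable {k : ℕ}

theorem lf_comp1 {F : List Bool → ℕ → ℕ} {f : Fn k} (hF : LF (fun x a => F x (a 0) : Fn 1))
    (hf : LF f) : LF (fun x a => F x (f x a)) :=
  LF.comp (m := 1) (f := fun x a => F x (a 0)) (g := ![f]) hF (fun i => by
    fin_cases i
    exact hf)

theorem lf_comp3 {F : List Bool → ℕ → ℕ → ℕ → ℕ} {f g h : Fn k}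
    (hF : LF (fun x a => F x (a 0) (a 1) (a 2) : Fn 3)) (hf : LF f) (hg : LF g) (hh : LF h) :
    LF (fun x a => F x (f x a) (g x a) (h x a)) :=
  LF.comp (m := 3) (f := fun x a => F x (a 0) (a 1) (a 2)) (g := ![f, g, h]) hF (fun i => by
    fin_cases i
    · exact hf
    · exact hg
    · exact hh)

theorem lf_comp5 {F : List Bool → ℕ → ℕ → ℕ → ℕ → ℕ → ℕ} {f g h u v : Fn k}
    (hF : LF (fun x a => F x (a 0) (a 1) (a 2) (a 3) (a 4) : Fn 5)) (hf : LF f) (hg : LF g)
    (hh : LF h) (hu : LF u) (hv : LF v) :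
    LF (fun x a => F x (f x a) (g x a) (h x a) (u x a) (v x a)) :=
  LF.comp (m := 5) (f := fun x a => F x (a 0) (a 1) (a 2) (a 3) (a 4)) (g := ![f, g, h, u, v]) hF
    (fun i => by
      fin_cases i
      · exact hf
      · exact hg
      · exact hh
      · exact hu
      · exact hv)

/-- Constructible functions are at most logarithmic. -/
theorem constructible_le {κ : ℕ → ℕ} (h : LogConstructible κ) :
    ∃ c : ℕ, ∀ n, κ n ≤ c * Nat.log 2 (n + 2) := by
  obtain ⟨M, c, i, hD, hB, hκ⟩ := h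
  refine ⟨c, fun n => ?_⟩
  have h1 := hκ (List.replicate n false) (fun _ => false)
  have h2 := (hB (List.replicate n false) (fun _ => false)).2
    (((List.replicate n false).length + 2) ^ c) i
  rw [List.length_replicate] at h1 h2
  rw [← h1]
  refine le_trans ?_ h2
  unfold Tape.nonblank Tape.cells
  refine (List.length_filter_le _ _).trans ?_
  simp only [List.length_append, List.length_cons]
  omega

theorem lf_twoPow {f : ℕ → ℕ} (hf : LF (fun x _ => f x.length : Fn 0)) {c : ℕ}
    (h : ∀ n, f n ≤ c * Nat.log 2 (n + 2)) : LF (fun x _ => 2 ^ f x.length : Fn 0) := by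
  refine LF.pow (LF.const 2) hf ?_
  have h1 : PB (fun x _ => (x.length + 2) ^ c : Fn 0) := (PB.len.add (PB.const 2)).pow c
  refine h1.of_le (fun x a => ?_)
  calc 2 ^ f x.length ≤ 2 ^ (c * Nat.log 2 (x.length + 2)) :=
        Nat.pow_le_pow_right (by norm_num) (h _)
    _ = (2 ^ Nat.log 2 (x.length + 2)) ^ c := by rw [← pow_mul, mul_comm]
    _ ≤ (x.length + 2) ^ c := Nat.pow_le_pow_left (Nat.pow_log_le_self 2 (by omega)) c

theorem lf_x {F : List Bool → ℕ} (h : LF (fun x _ => F x : Fn 0)) (k : ℕ) :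
    LF (fun x _ => F x : Fn k) :=
  Sel.LFx.lf h k

/-- The bit of an input symbol. -/
def bitT : InSym → Bool
  | InSym.bit b => b
  | _ => false

theorem bit_eq (x : List Bool) (i : ℕ) : bit x i = (bitT (inSym x (i + 1))).toNat := by
  unfold bit inSym
  rw [if_neg (Nat.succ_ne_zero i), Nat.add_sub_cancel, List.getD_eq_getElem?_getD]
  cases x[i]? with
  | none => simp [bitT]
  | some b => cases b <;> simp [bitT]

theorem lf_bit {f : Fn k} (hf : LF f) : LF (fun x a => bit x (f x a)) :=
  (LF.sym bitT hf.succ).congr (fun x a => (bit_eq x (f x a)).symm)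

theorem bit_le (x : List Bool) (i : ℕ) : bit x i ≤ 1 := by
  unfold bit; split_ifs <;> simp

/-- Numbers of logarithmic length. -/
theorem lf_num {i : Fn k} {l : ℕ → ℕ} (hi : LF i) (hl : LF (fun x _ => l x.length : Fn 0)) {c : ℕ}
    (h : ∀ n, l n ≤ c * Nat.log 2 (n + 2)) :
    LF (fun x a => num x (i x a) (l x.length + 1)) := by
  have h2 := lf_twoPow hl h
  have h3 : LF (fun x b => bit x (i x (Fin.tail b) + b 0) *
      Nat.min (2 ^ b 0) (2 ^ l x.length + 1) : Fn (k + 1)) :=
    (lf_bit (hi.weak.add (LF.proj 0))).mul (LF.powMin (LF.const 2) (LF.proj 0) (lf_x h2 (k + 1)))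
  refine (LF.sum h3 (lf_x hl k).succ).congr (fun x a => ?_)
  unfold num
  refine sum_congr rfl (fun j hj => ?_)
  rw [mem_range] at hj
  show bit x (i x a + j) * min (2 ^ j) (2 ^ l x.length + 1) = _
  rw [min_eq_left]
  have : 2 ^ j ≤ 2 ^ l x.length := Nat.pow_le_pow_right (by norm_num) (by omega)
  omega

/-- The number with a logarithmic number of bits, without the successor. -/
theorem lf_num' {i : Fn k} {l : ℕ → ℕ} (hi : LF i) (hl : LF (fun x _ => l x.length : Fn 0)) {c : ℕ}
    (h : ∀ n, l n ≤ c * Nat.log 2 (n + 2)) :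
    LF (fun x a => num x (i x a) (l x.length)) := by
  have h2 := lf_twoPow hl h
  have h3 : LF (fun x b => bit x (i x (Fin.tail b) + b 0) *
      Nat.min (2 ^ b 0) (2 ^ l x.length + 1) : Fn (k + 1)) :=
    (lf_bit (hi.weak.add (LF.proj 0))).mul (LF.powMin (LF.const 2) (LF.proj 0) (lf_x h2 (k + 1)))
  refine (LF.sum h3 (lf_x hl k)).congr (fun x a => ?_)
  unfold num
  refine sum_congr rfl (fun j hj => ?_)
  rw [mem_range] at hj
  show bit x (i x a + j) * min (2 ^ j) (2 ^ l x.length + 1) = _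
  rw [min_eq_left]
  have : 2 ^ j ≤ 2 ^ l x.length := Nat.pow_le_pow_right (by norm_num) (by omega)
  omega

section par

variable {lam W K g : ℕ → ℕ} {c : ℕ}

/-- The functions are computable and at most logarithmic. -/
structure Par (lam W K g : ℕ → ℕ) (c : ℕ) : Prop where
  hlam : LF (fun x _ => lam x.length : Fn 0)
  hW : LF (fun x _ => W x.length : Fn 0)
  hK : LF (fun x _ => K x.length : Fn 0)
  hg : LF (fun x _ => g x.length : Fn 0)
  lamc : ∀ n, lam n ≤ c * Nat.log 2 (n + 2)
  Wc : ∀ n, W n ≤ c * Nat.log 2 (n + 2)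
  Kc : ∀ n, K n ≤ c * Nat.log 2 (n + 2)
  gc : ∀ n, g n ≤ c * Nat.log 2 (n + 2)

theorem exists_par (hlam : LogConstructible lam) (hW : LogConstructible W)
    (hK : LogConstructible K) (hg : LogConstructible g) : ∃ c, Par lam W K g c := by
  obtain ⟨c1, h1⟩ := constructible_le hlam
  obtain ⟨c2, h2⟩ := constructible_le hW
  obtain ⟨c3, h3⟩ := constructible_le hK
  obtain ⟨c4, h4⟩ := constructible_le hg
  refine ⟨c1 + c2 + c3 + c4, Sel.lfx_of_constructible hlam, Sel.lfx_of_constructible hW,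
    Sel.lfx_of_constructible hK, Sel.lfx_of_constructible hg, fun n => (h1 n).trans ?_,
    fun n => (h2 n).trans ?_, fun n => (h3 n).trans ?_, fun n => (h4 n).trans ?_⟩ <;>
  exact Nat.mul_le_mul_right _ (by omega)

variable (P : Par lam W K g c)
include P

theorem Par.lf_entry {t u v : Fn k} (ht : LF t) (hu : LF u) (hv : LF v) :
    LF (fun x a => entry x (W x.length) (K x.length) (g x.length) (t x a) (u x a) (v x a)) := by
  have h2 := lf_x (lf_twoPow P.hW P.Wc) k
  exact lf_num ((((LF.const 2).mul (lf_x P.hW k)).add (lf_x P.hg k).succ).add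
    ((((ht.mul h2).add hu).mul h2).add hv |>.mul (lf_x P.hK k).succ)) P.hK P.Kc

theorem Par.lf_numT {t u v : Fn k} (ht : LF t) (hu : LF u) (hv : LF v) :
    LF (fun x a => numT x (lam x.length) (W x.length) (K x.length) (g x.length) (t x a) (u x a)
      (v x a)) := by
  have hW := lf_x (lf_twoPow P.hW P.Wc) k
  have hL := lf_x (lf_twoPow P.hlam P.lamc) k
  have hK := lf_x (lf_twoPow P.hK P.Kc) k
  have hs : LF (fun x a => ∑ w ∈ range (2 ^ W x.length),
      entry x (W x.length) (K x.length) (g x.length) (t x a) (u x a) w) := by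
    refine (LF.sum (k := k) (f := fun x b => entry x (W x.length) (K x.length) (g x.length)
      (t x (Fin.tail b)) (u x (Fin.tail b)) (b 0)) (P.lf_entry ht.weak hu.weak (LF.proj 0))
      hW).congr (fun x a => ?_)
    refine sum_congr rfl (fun j _ => ?_)
    simp only [Fin.tail_cons, Fin.cons_zero]
  unfold numT
  exact LF.ite ((LFP.lt ht hL).and (LFP.lt hu hW))
    (LF.ite (LFP.lt hv hW) (P.lf_entry ht hu hv)
      (LF.ite (LFP.eq hv hW) (hK.sub hs) (LF.const 0)))
    (LF.ite (LFP.eq hu hv) hK (LF.const 0))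

end par

end Vale.Agent.P313.MW
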