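import Vale.Agent.P313.H463.MW.MStmt

/-!
Medium width, assembly: only the members of the pool below `2 s` matter; the pool as a number; the
recursion satisfies the assumptions of the stack machine.
-/

namespace Vale.Agent.P313.MW

open Finset

/-! ### The pool -/

section congr

variable {Q : ℕ} {al be al' be' : ℕ → ℕ}

theorem lab_congr {C t : ℕ} : ∀ r, (∀ c < r, al c = al' c ∧ be c = be' c) → ∀ x,
    lab Q al be C t r x = lab Q al' be' C t r x := by
  intro r
  induction r with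
  | zero => intro _ x; rfl
  | succ r ih =>
    intro h x
    have h1 : hst Q al be C t r x = hst Q al' be' C t r x := by
      unfold hst
      rw [(h r (Nat.lt_succ_self r)).1, (h r (Nat.lt_succ_self r)).2]
    show lab Q al be C t r (hst Q al be C t r x) = lab Q al' be' C t r (hst Q al' be' C t r x)
    rw [h1]
    exact ih (fun c hc => h c (by omega)) _

theorem cw_congr {r : ℕ} (h : ∀ c < r, al c = al' c ∧ be c = be' c) (T : ℕ → ℕ → ℕ → ℕ)
    (C i t u v : ℕ) : cw Q r al be T C i t u v = cw Q r al' be' T C i t u v := by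
  have h1 : ∀ x, (fun t => lab Q al be C t r x) = (fun t => lab Q al' be' C t r x) := by
    intro x
    funext t
    exact lab_congr r h x
  unfold cw
  simp only [h1]

namespace Prm

variable {π : Prm}

theorem cnC_congr (h : ∀ c < 2 * π.s, al c = al' c ∧ be c = be' c) (mm : ℕ → ℕ → ℕ → ℕ) (C : ℕ) :
    π.cnC al be mm C = π.cnC al' be' mm C := by
  funext i j u v
  unfold cnC
  exact cw_congr h _ _ _ _ _ _

theorem pass_congr (h : ∀ c < 2 * π.s, al c = al' c ∧ be c = be' c) (mm : ℕ → ℕ → ℕ → ℕ)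
    (C : ℕ) : π.pass al be mm C ↔ π.pass al' be' mm C := by
  unfold pass
  rw [cnC_congr h]

theorem found_congr (h : ∀ c < 2 * π.s, al c = al' c ∧ be c = be' c) (mm : ℕ → ℕ → ℕ → ℕ) :
    π.found al be mm ↔ π.found al' be' mm := by
  unfold found
  simp only [pass_congr h]

theorem chs_congr (h : ∀ c < 2 * π.s, al c = al' c ∧ be c = be' c) (mm : ℕ → ℕ → ℕ → ℕ) :
    π.chs al be mm = π.chs al' be' mm := by
  unfold chs
  simp only [pass_congr h]

theorem stg_congr (h : ∀ c < 2 * π.s, al c = al' c ∧ be c = be' c) (B0 : ℕ → ℕ → ℕ → ℕ) :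
    ∀ k A u v, π.stg al be B0 k A u v = π.stg al' be' B0 k A u v := by
  intro k
  induction k with
  | zero => intro A u v; rfl
  | succ k ih =>
    intro A u v
    have h1 : (fun p u v => π.stg al be B0 k (A * π.n + p) u v) =
        (fun p u v => π.stg al' be' B0 k (A * π.n + p) u v) := by
      funext p u v
      exact ih _ _ _
    show π.nxt al be (fun p u v => π.stg al be B0 k (A * π.n + p) u v) u v =
      π.nxt al' be' (fun p u v => π.stg al' be' B0 k (A * π.n + p) u v) u v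
    rw [h1]
    unfold nxt
    rw [chs_congr h, cnC_congr h]

theorem stg_lt (hs : 1 ≤ π.s) (hQ : 0 < π.Q) (B0 : ℕ → ℕ → ℕ → ℕ) (A u v : ℕ) :
    π.stg al be B0 π.s A u v < π.Q ^ (π.J + 1) := by
  obtain ⟨s', hs'⟩ : ∃ s', π.s = s' + 1 := ⟨π.s - 1, by omega⟩
  rw [hs']
  exact Nat.mod_lt _ (Nat.pow_pos hQ)

end Prm

end congr

/-- Numbers with given digits. -/
theorem exists_digits {Q : ℕ} (d : ℕ → ℕ) (hd : ∀ i, d i < Q) (m : ℕ) :
    ∃ z < Q ^ m, ∀ i < m, z / Q ^ i % Q = d i := by
  have hQ : 0 < Q := lt_of_le_of_lt (Nat.zero_le _) (hd 0)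
  induction m with
  | zero => exact ⟨0, by simp, fun i hi => absurd hi (by omega)⟩
  | succ m ih =>
    obtain ⟨z, hz, h⟩ := ih
    refine ⟨z + d m * Q ^ m, ?_, fun i hi => ?_⟩
    · have h1 : (d m + 1) * Q ^ m ≤ Q * Q ^ m := Nat.mul_le_mul_right _ (hd m)
      rw [pow_succ, mul_comm (Q ^ m) Q]
      rw [add_mul, one_mul] at h1
      omega
    · rcases Nat.lt_or_ge i m with h1 | h1
      · obtain ⟨j, rfl⟩ : ∃ j, m = i + (j + 1) := ⟨m - i - 1, by omega⟩
        have h2 : z + d (i + (j + 1)) * Q ^ (i + (j + 1)) =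
            z + Q ^ i * (Q * (d (i + (j + 1)) * Q ^ j)) := by
          rw [pow_add, pow_succ]; ring
        rw [h2, Nat.add_mul_div_left _ _ (Nat.pow_pos hQ), Nat.add_mul_mod_self_left]
        exact h i h1
      · have h2 : i = m := by omega
        subst h2
        rw [Nat.add_mul_div_right _ _ (Nat.pow_pos hQ), Nat.div_eq_of_lt hz, zero_add]
        exact Nat.mod_eq_of_lt (hd i)

/-- The pool as a number. -/
theorem exists_pool_number {Q s : ℕ} {al be : ℕ → ℕ} (h : ∀ c, al c < Q ∧ be c < Q) :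
    ∃ z < Q ^ (4 * s), ∀ c < 2 * s, alz Q z c = al c ∧ bez Q z c = be c := by
  obtain ⟨z, hz, h1⟩ := exists_digits (Q := Q) (fun i => if i % 2 = 0 then al (i / 2) else
    be (i / 2)) (fun i => by
      show (if i % 2 = 0 then al (i / 2) else be (i / 2)) < Q
      split_ifs
      · exact (h _).1
      · exact (h _).2) (4 * s)
  refine ⟨z, hz, fun c hc => ⟨?_, ?_⟩⟩
  · unfold alz
    rw [h1 (2 * c) (by omega)]
    have h2 : 2 * c % 2 = 0 := by omega
    have h3 : 2 * c / 2 = c := by omega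
    rw [if_pos h2, h3]
  · unfold bez
    rw [h1 (2 * c + 1) (by omega)]
    have h2 : ¬ (2 * c + 1) % 2 = 0 := by omega
    have h3 : (2 * c + 1) / 2 = c := by omega
    rw [if_neg h2, h3]

/-! ### The recursion fits into the stack machine -/

namespace Prm

variable {π : Prm} {X : ℕ}

/-- Bounds for the addresses. -/
def bd (π : Prm) (i : ℕ) : ℕ := π.n ^ (π.s - (i + π.LP - 1) / π.LP)

theorem n_pos72 : 0 < π.n := Nat.two_pow_pos _

theorem bd_top : π.bd (π.s * π.LP) = 1 := by
  unfold bd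
  have h : (π.s * π.LP + π.LP - 1) / π.LP = π.s := by
    have h1 : π.s * π.LP + π.LP - 1 = π.LP * π.s + (π.LP - 1) := by
      unfold LP; rw [mul_comm]; omega
    rw [h1, Nat.mul_add_div (by unfold LP; omega), Nat.div_eq_of_lt (by unfold LP; omega),
      add_zero]
  rw [h, Nat.sub_self, pow_zero]

theorem bd_nine {k : ℕ} : π.bd (k * π.LP + 9) = π.n ^ (π.s - k - 1) := by
  unfold bd
  have h : (k * π.LP + 9 + π.LP - 1) / π.LP = k + 1 := by
    have h1 : k * π.LP + 9 + π.LP - 1 = π.LP * (k + 1) + 8 := by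
      rw [Nat.mul_succ, mul_comm]; unfold LP; omega
    rw [h1, Nat.mul_add_div (by unfold LP; omega), Nat.div_eq_of_lt (by unfold LP; omega),
      add_zero]
  rw [h, Nat.sub_sub]

theorem ite_lt {c : Prop} [Decidable c] {a b P : ℕ} (h1 : a < P) (h2 : b < P) :
    (if c then a else b) < P := by
  split <;> assumption

theorem qryL_lt (hX : 0 < X) (al be : ℕ → ℕ) (l kd C i j u v e w q s : ℕ) :
    π.qryL X al be l kd C i j u v e w q s < X ^ 8 := by
  unfold qryL
  repeat' first | exact pk_lt hX _ | apply ite_lt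

theorem rcn_ok {al be : ℕ → ℕ} {bs : ℕ → ℕ → ℕ} {top : ℕ} (hX : 2 ≤ X)
    (htop : top < X ^ 8) (ht : top ≤ π.s * π.LP) :
    RecA.Ok (π.rcn X al be bs) (π.n ^ π.s) (X ^ 8) (X ^ 4) top π.bd := by
  have hX0 : 0 < X := by omega
  have h8 : 0 < X ^ 8 := Nat.pow_pos hX0
  have hLP : 0 < π.LP := by unfold LP; omega
  refine ⟨?_, htop, ?_, Nat.pow_pos hX0, fun _ _ => Nat.mod_lt _ h8, fun _ _ => h8,
    fun _ _ _ _ => qryL_lt hX0 _ _ _ _ _ _ _ _ _ _ _ _ _, fun _ _ _ _ _ => Nat.mod_lt _ h8,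
    fun _ _ _ => Nat.mod_lt _ h8, ?_, ?_, ?_⟩
  · calc 2 ≤ X ^ 1 := by simpa using hX
      _ ≤ X ^ 8 := Nat.pow_le_pow_right hX0 (by norm_num)
  · exact Nat.pow_lt_pow_right (by omega) (by norm_num)
  · intro i a
    show (if i % π.LP = 0 then fd X a 2 % π.n else 0) < (if i % π.LP = 0 then π.n else 1)
    split_ifs
    · exact Nat.mod_lt _ n_pos72
    · exact Nat.one_pos
  · intro i hi
    show π.bd (i + 1) * (if i % π.LP = 0 then π.n else 1) ≤ π.bd i
    unfold bd
    split_ifs with h0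
    · obtain ⟨q, hq⟩ : ∃ q, i = π.LP * q := ⟨i / π.LP, by
        have := Nat.div_add_mod i π.LP; omega⟩
      have h1 : (i + 1 + π.LP - 1) / π.LP = q + 1 := by
        have e : i + 1 + π.LP - 1 = π.LP * (q + 1) := by rw [Nat.mul_succ, hq]; omega
        rw [e, Nat.mul_div_cancel_left _ hLP]
      have h2 : (i + π.LP - 1) / π.LP = q := by
        have e : i + π.LP - 1 = π.LP * q + (π.LP - 1) := by rw [hq]; omega
        rw [e, Nat.mul_add_div hLP, Nat.div_eq_of_lt (by omega), add_zero]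
      rw [h1, h2]
      have h3 : q < π.s := by
        by_contra h4
        have h5 : π.s * π.LP ≤ π.LP * q := by
          rw [mul_comm]; exact Nat.mul_le_mul_left _ (not_lt.1 h4)
        omega
      have h4 : π.s - q = (π.s - (q + 1)) + 1 := by omega
      rw [h4, pow_succ]
    · rw [mul_one]
      apply Nat.pow_le_pow_right n_pos72
      have : (i + π.LP - 1) / π.LP ≤ (i + 1 + π.LP - 1) / π.LP :=
        Nat.div_le_div_right (by omega)
      omega
  · intro i _
    exact Nat.pow_le_pow_right n_pos72 (Nat.sub_le _ _)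

/-- The stack machine computes the values. -/
theorem run_eq {al be : ℕ → ℕ} {bs : ℕ → ℕ → ℕ} {top M A a : ℕ} (hX : 2 ≤ X)
    (hsX : π.s * π.LP < X ^ 8)
    (hM : π.n ^ π.s * (X ^ 8) ^ (3 * (π.s * π.LP) + 3) ≤ M)
    (hM2 : RecD.tt (X ^ 4) (π.s * π.LP) ≤ M) (ht : top ≤ π.s * π.LP) (hA : A < π.bd top)
    (ha : a < X ^ 8) :
    (π.rcn X al be bs).run (π.n ^ π.s) (X ^ 8) (X ^ 4) top M A a = π.V X al be bs top A a := by
  have hX0 : 0 < X := by omega
  have h8 : 0 < X ^ 8 := Nat.pow_pos hX0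
  refine RecA.run_top (rcn_ok hX (by omega) ht) ?_ ?_ hA ha
  · refine le_trans (Nat.mul_le_mul_left _ (Nat.pow_le_pow_right h8 ?_)) hM
    omega
  · refine le_trans ?_ hM2
    have hmono : Monotone (RecD.tt (X ^ 4)) := by
      apply monotone_nat_of_le_succ
      intro i
      simp only [RecD.tt]
      have : 1 ≤ X ^ 4 := Nat.pow_pos hX0
      nlinarith
    exact hmono ht

end Prm

end Vale.Agent.P313.MW
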