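import Vale.Agent.P313.H72.MWd
import Vale.Agent.P313.H638.T
import Vale.Agent.P313.H638.K3
import Vale.Agent.P313.H638.K2
import Vale.Agent.P313.H146.ModS
import Vale.Agent.P313.H146.ModN
import Vale.Agent.P313.H157.K1
import Vale.Agent.P313.H577.ModC
import Vale.Agent.P313.H577.LfM

/-!
Medium width: everything but the values of the stack machine (`ModV`).
-/

namespace Vale.Agent.P313.MW

theorem H72.modK2 : ModK2 := H638.modK2 H146.modS

theorem H72.modK3 : ModK3 := H638.modK3 H146.modS H577.modC modK1

/-- MEDIUM WIDTH, from the values of the stack machine. -/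
theorem mw_of_modV (hV : ModV)
    {lam W K g : ℕ → ℕ} (hlam : LogConstructible lam) (hW : LogConstructible W)
    (hK : LogConstructible K) (hg : LogConstructible g) :
    ∃ (A : Set (List Bool)) (D : RTM) (e : ℝ),
      D.Decides A (fun n => (2 : ℝ) ^ (e * theS lam W g n)) (fun n => e * theS lam W g n) ∧
      ∀ x : List Bool, SubSt x (lam x.length) (W x.length) (K x.length) (g x.length) →
        (((num x (2 * W x.length) (g x.length + 1) : ℚ) + 1) / 2 ^ g x.length ≤
          prodM x (W x.length) (K x.length) (g x.length) (2 ^ lam x.length)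
            (num x 0 (W x.length)) (num x (W x.length) (W x.length)) → x ∈ A) ∧
        (prodM x (W x.length) (K x.length) (g x.length) (2 ^ lam x.length)
            (num x 0 (W x.length)) (num x (W x.length) (W x.length)) ≤
          (num x (2 * W x.length) (g x.length + 1) : ℚ) / 2 ^ g x.length → x ∉ A) :=
  mw_decides hV H577.modL H638.modT H146.modN H72.modK2 H72.modK3 hlam hW hK hg


end Vale.Agent.P313.MW
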